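import Vale.Agent.P151.FiniteCluster

/-!
Auxiliary facts for the connection inequality: clusters as sets, exploration inside a restricted
edge set, and the basic monotonicity facts.
-/

open Finset

namespace Vale.Agent.P151.KN

open Vale.Agent.P151.Fin
open P165 (cl subset_cl cl_mono cl_step cl_subset cl_trans)

variable {W : Type*} {ω : Finset (Sym2 W)} {C C' : Set W} {x y : W}

lemma mem_cl_singleton_symm : x ∈ cl {y} ω ↔ y ∈ cl {x} ω := by
  constructor
  · rintro ⟨z, rfl, h⟩; exact ⟨x, rfl, h.symm⟩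
  · rintro ⟨z, rfl, h⟩; exact ⟨y, rfl, h.symm⟩

lemma cl_singleton_eq (h : x ∈ cl {y} ω) : cl {x} ω = cl {y} ω :=
  subset_antisymm (cl_trans (Set.singleton_subset_iff.2 h) subset_rfl)
    (cl_trans (Set.singleton_subset_iff.2 (mem_cl_singleton_symm.1 h)) subset_rfl)

lemma sep_singleton {R : Set W} : Sep {x} R ω ↔ x ∉ cl R ω := by
  refine ⟨?_, fun h v hv hc => h ?_⟩
  · rintro h ⟨v, hv, hr⟩
    exact h v hv ⟨x, rfl, hr.symm⟩
  · obtain ⟨z, rfl, hr⟩ := hc
    exact ⟨v, hv, hr.symm⟩

lemma sep_single_right {R : Set W} : Sep R {x} ω ↔ x ∉ cl R ω :=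
  ⟨fun h => h x rfl, fun h _ hv => hv ▸ h⟩

lemma near_away_comm (V C : Set W) (ω : Finset (Sym2 W)) :
    near V (away C ω) = away C (near V ω) := by
  ext e
  simp only [mem_near, mem_away]
  tauto

lemma cl_empty_edges (R : Set W) : cl R (∅ : Finset (Sym2 W)) = R :=
  subset_antisymm (cl_subset subset_rfl fun _ _ _ h => absurd h (notMem_empty _)) (subset_cl _ _)

variable [DecidableEq W] {p : Sym2 W → ℝ} {U : Finset (Sym2 W)}

/-- Given the cluster of `R` among the edges away from `C`, the edges away from that cluster may be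
sampled afresh. -/
theorem ev_explore_in (p : Sym2 W → ℝ) (U : Finset (Sym2 W)) (C R : Set W)
    (Φ : Set W → Finset (Sym2 W) → ℝ) :
    ev p U (fun ω => Φ (cl R (away C ω)) (away (cl R (away C ω)) ω)) =
      ev p U fun ω => ev p U fun ω' => Φ (cl R (away C ω)) (away (cl R (away C ω)) ω') := by
  have key : ∀ F : Set W → Finset (Sym2 W) → ℝ, ev p U (fun ω => F (cl R (away C ω)) ω) =
      ∑ K ∈ U.powerset, ev p U fun ω =>
        ind (away C (near (cl R K) ω) = K) * F (cl R K) ω := by
    intro F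
    rw [← ev_sum]
    refine ev_congr fun ω hω => ?_
    rw [sum_eq_single (clu R (away C ω))]
    · rw [ind_true (by rw [← near_away_comm]; exact (clu_eq_iff R _ _).1 rfl), one_mul, cl_clu]
    · intro K _ hK
      rw [ind_false fun h => hK ?_, zero_mul]
      rw [← near_away_comm] at h
      exact ((clu_eq_iff R (away C ω) K).2 h).symm
    · exact fun h => absurd
        (mem_powerset.2 (((clu_subset R _).trans (away_subset C ω)).trans hω)) h
  rw [key fun S ω => Φ S (away S ω), key fun S _ => ev p U fun ω' => Φ S (away S ω')]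
  refine sum_congr rfl fun K _ => ?_
  have h := ev_indep (p := p) (U := U) (cl R K) (fun A => ind (away C A = K)) (Φ (cl R K))
  beta_reduce at h
  rw [h, mul_comm, ← ev_mul_left]
  exact ev_congr fun ω _ => mul_comm _ _

/-- Given the cluster of `R`, the edges away from it may be sampled afresh. -/
theorem ev_explore_cl (p : Sym2 W → ℝ) (U : Finset (Sym2 W)) (R : Set W)
    (Φ : Set W → Finset (Sym2 W) → ℝ) :
    ev p U (fun ω => Φ (cl R ω) (away (cl R ω) ω)) =
      ev p U fun ω => ev p U fun ω' => Φ (cl R ω) (away (cl R ω) ω') := by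
  have h0 : ∀ ω : Finset (Sym2 W), away (∅ : Set W) ω = ω := fun ω => by
    ext e; simp [mem_away]
  simpa only [h0] using ev_explore_in p U ∅ R Φ

/-- Two functions agreeing at the empty configuration have close expectations. -/
lemma ev_sub_le_of_eq_empty (h0 : ∀ e, 0 ≤ p e) (h1 : ∀ e, p e ≤ 1) {f f' : Finset (Sym2 W) → ℝ}
    {M : ℝ} (he : f ∅ = f' ∅) (hM : ∀ S, f S - f' S ≤ M) :
    ev p U f - ev p U f' ≤ (1 - wt p U ∅) * M := by
  classical
  rw [← ev_sub]
  have h : ev p U (fun S => M - M * ind (S = ∅)) = (1 - wt p U ∅) * M := by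
    rw [ev_sub, ev_const, ev_mul_left]
    have : ev p U (fun S => ind (S = ∅)) = wt p U ∅ := by
      rw [ev, sum_eq_single ∅]
      · simp [ind]
      · intro S _ hS; simp [ind, hS]
      · simp
    rw [this]; ring
  refine (ev_mono h0 h1 fun S _ => ?_).trans_eq h
  by_cases hS : S = ∅
  · subst hS
    rw [ind_true rfl, he]
    linarith
  · rw [ind_false hS]
    linarith [hM S]

lemma wt_empty_pos (h0 : ∀ e, 0 ≤ p e) (h1 : ∀ e, p e < 1) : 0 < wt p U ∅ := by
  simp only [wt, prod_empty, one_mul, sdiff_empty]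
  exact prod_pos fun e _ => sub_pos.2 (h1 e)

end Vale.Agent.P151.KN
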