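import Vale.Agent.P151.KN.System

/-!
The connection inequality: `P(a ↔ d) ≥ P(a ↔ B) · min_{u ∈ B} P(u ↔ d)`.
-/

open Finset

namespace Vale.Agent.P151.KN

open Vale.Agent.P151.Fin
open P165 (cl subset_cl cl_mono cl_step cl_subset cl_trans)

variable {W : Type*} [DecidableEq W]

/-- For the point `b` of `B` with least mean of an increasing cluster function, the cluster of `a`
beats the cluster of `b` on the event that `a` is connected to `B`. -/
theorem strong_connection {p : Sym2 W → ℝ} {U : Finset (Sym2 W)} (h0 : ∀ e, 0 ≤ p e)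
    (h1 : ∀ e, p e < 1) (a : W) {B : Finset W} {b : W} (hb : b ∈ B) {F : Set W → ℝ}
    (hF : Monotone F)
    (hmin : ∀ u ∈ B, ev p U (fun ω => F (cl {b} ω)) ≤ ev p U fun ω => F (cl {u} ω)) :
    ev p U (fun ω => ind (a ∈ cl (B : Set W) ω) * F (cl {b} ω)) ≤
      ev p U fun ω => ind (a ∈ cl (B : Set W) ω) * F (cl {a} ω) := by
  classical
  let l := (B.erase b).toList
  have hmem : ∀ x, x ∈ l ↔ x ∈ B.erase b := fun x => Finset.mem_toList
  let D : Sys W :=
    { p := p, U := U, a := a, b := b, m := l.length, v := fun i => l.getD i b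
      nonneg := h0, lt_one := h1
      ne_b := fun i hi => by
        rw [List.getD_eq_getElem _ _ hi]
        exact (Finset.mem_erase.1 ((hmem _).1 (List.getElem_mem hi))).1
      inj := fun i hi j hj h => by
        rw [List.getD_eq_getElem _ _ hi, List.getD_eq_getElem _ _ hj] at h
        exact ((B.erase b).nodup_toList.getElem_inj_iff).1 h }
  have hR : D.R 0 = (B : Set W) := by
    ext x
    constructor
    · rintro (h | ⟨j, -, hj, rfl⟩)
      · exact h ▸ hb
      · show l.getD j b ∈ (B : Set W)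
        rw [List.getD_eq_getElem _ _ hj]
        exact (Finset.mem_erase.1 ((hmem _).1 (List.getElem_mem hj))).2
    · intro hx
      by_cases hxb : x = b
      · exact .inl hxb
      · obtain ⟨j, hj, rfl⟩ := List.getElem_of_mem ((hmem x).2 (Finset.mem_erase.2 ⟨hxb, hx⟩))
        exact .inr ⟨j, Nat.zero_le j, hj, List.getD_eq_getElem _ _ hj⟩
  have h := D.certificate hF fun i hi => hmin _ (by
    show l.getD i b ∈ B
    rw [List.getD_eq_getElem _ _ hi]
    exact (Finset.mem_erase.1 ((hmem _).1 (List.getElem_mem hi))).2)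
  rw [hR] at h
  exact h

/-- The Kozma–Nitzan connection inequality, with constant one, for weights below one. -/
theorem connection {p : Sym2 W → ℝ} {U : Finset (Sym2 W)} (h0 : ∀ e, 0 ≤ p e)
    (h1 : ∀ e, p e < 1) (a d : W) {B : Finset W} {b : W} (hb : b ∈ B)
    (hmin : ∀ u ∈ B, pr p U (fun ω => d ∈ cl {b} ω) ≤ pr p U fun ω => d ∈ cl {u} ω) :
    pr p U (fun ω => a ∈ cl (B : Set W) ω) * pr p U (fun ω => d ∈ cl {b} ω) ≤
      pr p U (fun ω => a ∈ cl (B : Set W) ω ∧ d ∈ cl {a} ω) := by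
  have hle : ∀ e, p e ≤ 1 := fun e => (h1 e).le
  have h := strong_connection (U := U) h0 h1 a hb (F := fun C => ind (d ∈ C))
    (fun C C' hC => ind_mono fun hd => hC hd) hmin
  refine le_trans (le_trans ?_ h) (le_of_eq ?_)
  · refine ev_mul_ge h0 hle U ?_ ?_
    · exact fun ω η hω => ind_mono fun hx => cl_mono subset_rfl hω hx
    · exact fun ω η hω => ind_mono fun hx => cl_mono subset_rfl hω hx
  · exact ev_congr fun ω _ => (ind_and _ _).symm

/-- The inequality with a common lower bound on the connections from `B` to `d`. -/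
theorem connection_of_le {p : Sym2 W → ℝ} {U : Finset (Sym2 W)} (h0 : ∀ e, 0 ≤ p e)
    (h1 : ∀ e, p e < 1) (a d : W) {B : Finset W} {t : ℝ}
    (ht : ∀ u ∈ B, t ≤ pr p U fun ω => d ∈ cl {u} ω) :
    pr p U (fun ω => a ∈ cl (B : Set W) ω) * t ≤
      pr p U (fun ω => a ∈ cl (B : Set W) ω ∧ d ∈ cl {a} ω) := by
  have hle : ∀ e, p e ≤ 1 := fun e => (h1 e).le
  rcases B.eq_empty_or_nonempty with rfl | hB
  · have : pr p U (fun ω => a ∈ cl ((∅ : Finset W) : Set W) ω) = 0 :=
      (ev_congr fun ω _ => ind_false (by rintro ⟨u, hu, -⟩; simp at hu)).trans (ev_const 0)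
    rw [this, zero_mul]
    exact pr_nonneg h0 hle _
  · obtain ⟨b, hb, hmin⟩ := B.exists_min_image (fun u => pr p U fun ω => d ∈ cl {u} ω) hB
    exact le_trans (mul_le_mul_of_nonneg_left (ht b hb) (pr_nonneg h0 hle _))
      (connection h0 h1 a d hb hmin)

/-- The inequality for an increasing function of the cluster. -/
theorem connection_fun_of_le {p : Sym2 W → ℝ} {U : Finset (Sym2 W)} (h0 : ∀ e, 0 ≤ p e)
    (h1 : ∀ e, p e < 1) (a : W) {B : Finset W} {F : Set W → ℝ} (hF : Monotone F) {t : ℝ}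
    (ht : ∀ u ∈ B, t ≤ ev p U fun ω => F (cl {u} ω)) :
    pr p U (fun ω => a ∈ cl (B : Set W) ω) * t ≤
      ev p U fun ω => ind (a ∈ cl (B : Set W) ω) * F (cl {a} ω) := by
  have hle : ∀ e, p e ≤ 1 := fun e => (h1 e).le
  rcases B.eq_empty_or_nonempty with rfl | hB
  · have h : ∀ ω, ind (a ∈ cl ((∅ : Finset W) : Set W) ω) = 0 := fun ω =>
      ind_false (by rintro ⟨u, hu, -⟩; simp at hu)
    have e1 : pr p U (fun ω => a ∈ cl ((∅ : Finset W) : Set W) ω) = 0 :=
      (ev_congr fun ω _ => h ω).trans (ev_const 0)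
    have e2 : ev p U (fun ω => ind (a ∈ cl ((∅ : Finset W) : Set W) ω) * F (cl {a} ω)) = 0 :=
      (ev_congr fun ω _ => by rw [h ω, zero_mul]).trans (ev_const 0)
    rw [e1, e2, zero_mul]
  · obtain ⟨b, hb, hmin⟩ := B.exists_min_image (fun u => ev p U fun ω => F (cl {u} ω)) hB
    refine le_trans (le_trans (mul_le_mul_of_nonneg_left (ht b hb) (pr_nonneg h0 hle _)) ?_)
      (strong_connection h0 h1 a hb hF hmin)
    refine ev_mul_ge h0 hle U ?_ ?_
    · exact fun ω η hω => ind_mono fun hx => cl_mono subset_rfl hω hx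
    · exact fun ω η hω => hF (cl_mono subset_rfl hω)

end Vale.Agent.P151.KN
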