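import Vale.Agent.P151.KN.Explore

/-!
The triangular system behind the connection inequality and its correlation lemma.
-/

open Finset

namespace Vale.Agent.P151.KN

open Vale.Agent.P151.Fin
open P165 (cl subset_cl cl_mono cl_step cl_subset cl_trans)

variable {W : Type*}

/-- Data: a weighted finite edge set, the points `a`, `b` and a list `v 0, …, v (m-1)`. -/
structure Sys (W : Type*) [DecidableEq W] where
  /-- weights -/
  p : Sym2 W → ℝ
  /-- edges -/
  U : Finset (Sym2 W)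
  /-- source -/
  a : W
  /-- distinguished point of the target set -/
  b : W
  /-- number of other points -/
  m : ℕ
  /-- other points -/
  v : ℕ → W
  nonneg : ∀ e, 0 ≤ p e
  lt_one : ∀ e, p e < 1
  ne_b : ∀ i < m, v i ≠ b
  inj : ∀ i < m, ∀ j < m, v i = v j → i = j

variable [DecidableEq W] (D : Sys W)

/-- `b` together with the listed points from index `k` on. -/
def Sys.R (k : ℕ) : Set W := insert D.b {x | ∃ j, k ≤ j ∧ j < D.m ∧ D.v j = x}

/-- The cluster of the `i`-th point. -/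
def Sys.C (i : ℕ) (ω : Finset (Sym2 W)) : Set W := cl {D.v i} ω

/-- The `i`-th point avoids `b` and all later points. -/
noncomputable def Sys.N (i : ℕ) (ω : Finset (Sym2 W)) : ℝ := ind (D.v i ∉ cl (D.R (i + 1)) ω)

/-- The coefficient function. -/
noncomputable def Sys.g (μ : ℕ → ℝ) (i : ℕ) (C : Set W) : ℝ :=
  ind (D.a ∈ C) - ∑ l ∈ range (i + 1), μ l * ind (D.v l ∈ C)

/-- The multipliers solve the triangular system. -/
def Sys.Solves (μ : ℕ → ℝ) : Prop :=
  ∀ i < D.m, ev D.p D.U (fun ω => D.N i ω * D.g μ i (D.C i ω)) = 0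

lemma Sys.le_one (e : Sym2 W) : D.p e ≤ 1 := (D.lt_one e).le

lemma Sys.self_mem (i : ℕ) (ω : Finset (Sym2 W)) : D.v i ∈ D.C i ω := subset_cl _ _ rfl

lemma Sys.N_pos {i : ℕ} (hi : i < D.m) : 0 < ev D.p D.U (D.N i) := by
  refine lt_of_lt_of_le (wt_empty_pos (U := D.U) D.nonneg D.lt_one) ?_
  refine le_trans ?_ (single_le_sum (f := fun S => wt D.p D.U S * D.N i S)
    (fun S _ => mul_nonneg (wt_nonneg D.nonneg D.le_one _ _) (ind_nonneg _))
    (empty_mem_powerset D.U))
  rw [Sys.N, ind_true, mul_one]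
  rw [cl_empty_edges]
  rintro (h | ⟨j, hij, hj, h⟩)
  · exact D.ne_b i hi h
  · have := D.inj j hj i hi h
    omega

theorem Sys.exists_solves : ∃ μ, D.Solves μ := by
  suffices ∀ k ≤ D.m, ∃ μ, ∀ i < k, ev D.p D.U (fun ω => D.N i ω * D.g μ i (D.C i ω)) = 0 from
    this D.m le_rfl
  intro k
  induction k with
  | zero => exact fun _ => ⟨0, fun i hi => absurd hi (Nat.not_lt_zero i)⟩
  | succ k ih =>
    intro hk
    obtain ⟨μ, hμ⟩ := ih (by omega)
    let A := ev D.p D.U fun ω => D.N k ω *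
      (ind (D.a ∈ D.C k ω) - ∑ l ∈ range k, μ l * ind (D.v l ∈ D.C k ω))
    refine ⟨Function.update μ k (A / ev D.p D.U (D.N k)), fun i hi => ?_⟩
    rcases Nat.lt_or_ge i k with h | h
    · rw [← hμ i h]
      refine ev_congr fun ω _ => ?_
      simp only [Sys.g]
      congr 2
      refine sum_congr rfl fun l hl => ?_
      rw [Function.update_of_ne (by have := mem_range.1 hl; omega)]
    · obtain rfl : i = k := by omega
      have h1 : ∀ ω, D.N i ω * D.g (Function.update μ i (A / ev D.p D.U (D.N i))) i (D.C i ω) =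
          D.N i ω * (ind (D.a ∈ D.C i ω) - ∑ l ∈ range i, μ l * ind (D.v l ∈ D.C i ω)) -
            (A / ev D.p D.U (D.N i)) * D.N i ω := by
        intro ω
        simp only [Sys.g, sum_range_succ, Function.update_self]
        rw [ind_true (D.self_mem i ω), sum_congr rfl fun l hl => by
          rw [Function.update_of_ne (show l ≠ i by have := mem_range.1 hl; omega)]]
        ring
      rw [ev_congr fun ω _ => h1 ω, ev_sub, ev_mul_left,
        div_mul_cancel₀ _ (D.N_pos (by omega)).ne']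
      exact sub_self A

lemma Sys.cl_R {k : ℕ} (hk : k < D.m) (ω : Finset (Sym2 W)) :
    cl (D.R k) ω = cl (D.R (k + 1)) ω ∪ D.C k ω := by
  rw [Sys.C, ← cl_union]
  congr 1
  ext x
  simp only [Sys.R, Set.mem_union, Set.mem_insert_iff, Set.mem_ofPred_eq, Set.mem_singleton_iff]
  constructor
  · rintro (h | ⟨j, h1, h2, h3⟩)
    · exact .inl (.inl h)
    · rcases eq_or_lt_of_le h1 with rfl | h1
      · exact .inr h3.symm
      · exact .inl (.inr ⟨j, h1, h2, h3⟩)
  · rintro ((h | ⟨j, h1, h2, h3⟩) | h)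
    · exact .inl h
    · exact .inr ⟨j, by omega, h2, h3⟩
    · exact .inr ⟨k, le_rfl, hk, h.symm⟩

lemma Sys.mem_R {i j : ℕ} (hij : i ≤ j) (hj : j < D.m) : D.v j ∈ D.R i :=
  Set.mem_insert_of_mem _ ⟨j, hij, hj, rfl⟩

lemma Sys.R_mono {i j : ℕ} (hij : i ≤ j) : D.R j ⊆ D.R i := by
  rintro x (h | ⟨l, h1, h2, h3⟩)
  · exact .inl h
  · exact .inr ⟨l, hij.trans h1, h2, h3⟩

/-- Each point outside the cluster of `R k` that meets a listed point below `k` is counted once. -/
lemma Sys.sum_count (x : W) (ω : Finset (Sym2 W)) : ∀ k ≤ D.m,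
    ∑ j ∈ range k, D.N j ω * ind (x ∈ D.C j ω) =
      ind ((∃ j < k, x ∈ D.C j ω) ∧ x ∉ cl (D.R k) ω) := by
  intro k
  induction k with
  | zero => intro _; simp [ind]
  | succ k ih =>
    intro hk
    rw [sum_range_succ, ih (by omega), D.cl_R (by omega) ω]
    by_cases hx : x ∈ D.C k ω
    · rw [ind_false (P := (∃ j < k, x ∈ D.C j ω) ∧ x ∉ cl (D.R (k + 1)) ω ∪ D.C k ω)
        (fun h => h.2 (Or.inr hx)), zero_add,
        ind_true hx, mul_one, Sys.N]
      refine ind_congr ⟨fun h => ⟨⟨k, Nat.lt_succ_self k, hx⟩, fun h' => h ?_⟩, fun h h' => h.2 ?_⟩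
      · exact cl_trans (Set.singleton_subset_iff.2 h') subset_rfl (mem_cl_singleton_symm.1 hx)
      · exact cl_trans (Set.singleton_subset_iff.2 h') subset_rfl hx
    · rw [ind_false hx, mul_zero, add_zero]
      refine ind_congr ⟨fun h => ⟨?_, fun h' => h.2 (.inl h')⟩, fun h => ⟨?_, ?_⟩⟩
      · obtain ⟨j, hj, hjx⟩ := h.1
        exact ⟨j, by omega, hjx⟩
      · obtain ⟨j, hj, hjx⟩ := h.1
        exact ⟨j, lt_of_le_of_ne (Nat.lt_succ_iff.1 hj) fun e => hx (e ▸ hjx), hjx⟩
      · rintro (h' | h')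
        · exact h.2 h'
        · exact hx h'

lemma Sys.N_mul_eq_zero {j l : ℕ} (hjl : j < l) (hl : l < D.m) (ω : Finset (Sym2 W)) :
    D.N j ω * ind (D.v l ∈ D.C j ω) = 0 := by
  by_cases h : D.v l ∈ D.C j ω
  · have h2 : D.v j ∈ cl (D.R (j + 1)) ω := by
      obtain ⟨z, rfl, hz⟩ := h
      exact ⟨D.v l, D.mem_R hjl hl, hz.symm⟩
    rw [Sys.N, ind_false (not_not.2 h2), zero_mul]
  · rw [ind_false h, mul_zero]

/-- The coefficient functions add up pointwise. -/
lemma Sys.sum_g (μ : ℕ → ℝ) (ω : Finset (Sym2 W)) {k : ℕ} (hk : k ≤ D.m) :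
    ∑ j ∈ range k, D.N j ω * D.g μ j (D.C j ω) =
      ind ((∃ j < k, D.a ∈ D.C j ω) ∧ D.a ∉ cl (D.R k) ω) -
        ∑ l ∈ range k, μ l * ind (D.v l ∉ cl (D.R k) ω) := by
  simp only [Sys.g, mul_sub, sum_sub_distrib, mul_sum]
  rw [D.sum_count D.a ω k hk]
  congr 1
  have h1 : ∀ j ∈ range k, ∑ l ∈ range (j + 1), D.N j ω * (μ l * ind (D.v l ∈ D.C j ω)) =
      ∑ l ∈ range k, D.N j ω * (μ l * ind (D.v l ∈ D.C j ω)) := by
    intro j hj
    have hjk := mem_range.1 hj
    refine sum_subset (range_subset_range.2 hjk) fun l hl hl' => ?_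
    rw [mul_left_comm, D.N_mul_eq_zero (by simp at hl'; omega)
      ((mem_range.1 hl).trans_le hk), mul_zero]
  rw [sum_congr rfl h1, sum_comm]
  refine sum_congr rfl fun l hl => ?_
  rw [sum_congr rfl fun j _ => mul_left_comm (D.N j ω) (μ l) _, ← mul_sum,
    D.sum_count (D.v l) ω k hk]
  exact congrArg (μ l * ·) (ind_congr
    ⟨fun h => h.2, fun h => ⟨⟨l, mem_range.1 hl, D.self_mem l ω⟩, h⟩⟩)

/-- Mean of `h` of the cluster of the `i`-th point away from `S`. -/
noncomputable def Sys.H (i : ℕ) (h : Set W → ℝ) (S : Set W) : ℝ :=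
  ev D.p D.U fun ω => h (cl {D.v i} (away S ω))

/-- One step of the alternating resampling. -/
noncomputable def Sys.T (i : ℕ) (h : Set W → ℝ) (C : Set W) : ℝ :=
  ev D.p D.U fun ω => D.H i h (cl (D.R (i + 1)) (away C ω))

lemma Sys.H_antitone (i : ℕ) {h : Set W → ℝ} (hh : Monotone h) : Antitone (D.H i h) :=
  fun _ _ hS => ev_mono D.nonneg D.le_one fun _ _ =>
    hh (cl_mono subset_rfl (away_mono hS subset_rfl))

lemma Sys.T_monotone (i : ℕ) {h : Set W → ℝ} (hh : Monotone h) : Monotone (D.T i h) :=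
  fun _ _ hC => ev_mono D.nonneg D.le_one fun _ _ =>
    D.H_antitone i hh (cl_mono subset_rfl (away_mono hC subset_rfl))

lemma Sys.T_osc (i : ℕ) {h : Set W → ℝ} {M : ℝ} (hM : ∀ C C', h C - h C' ≤ M) (C C' : Set W) :
    D.T i h C - D.T i h C' ≤ (1 - wt D.p D.U ∅) * M := by
  have hH : ∀ S S', D.H i h S - D.H i h S' ≤ (1 - wt D.p D.U ∅) * M := fun S S' =>
    ev_sub_le_of_eq_empty D.nonneg D.le_one
      (by simp only [Finset.subset_empty.1 (away_subset S (∅ : Finset (Sym2 W))),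
        Finset.subset_empty.1 (away_subset S' (∅ : Finset (Sym2 W)))])
      fun _ => hM _ _
  rw [Sys.T, Sys.T, ← ev_sub]
  exact (ev_mono D.nonneg D.le_one fun ω _ => hH _ _).trans_eq (ev_const _)

/-- Given an earlier cluster, the centred later function has an antitone mean. -/
lemma Sys.psi_antitone (i : ℕ) {h : Set W → ℝ} (hh : Monotone h) :
    Antitone fun C => ev D.p D.U fun ω =>
      ind (D.v i ∉ cl (D.R (i + 1)) (away C ω)) *
        (h (cl {D.v i} (away C ω)) - D.H i h (cl (D.R (i + 1)) (away C ω))) := by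
  set w := D.v i
  set R := D.R (i + 1)
  let X : Set W → Finset (Sym2 W) → ℝ := fun C ω => ind (w ∉ cl R (away C ω)) *
    (h (cl {w} (away C ω)) - h (cl {w} (away (cl R (away C ω)) ω)))
  have hX : ∀ C, ev D.p D.U (X C) = ev D.p D.U fun ω =>
      ind (w ∉ cl R (away C ω)) * (h (cl {w} (away C ω)) - D.H i h (cl R (away C ω))) := by
    intro C
    simp only [X, mul_sub, ev_sub]
    congr 1
    refine (ev_explore_in D.p D.U C R fun S η => ind (w ∉ S) * h (cl {w} η)).trans ?_
    exact ev_congr fun ω _ => ev_mul_left _ _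
  intro C C' hC
  show ev D.p D.U _ ≤ ev D.p D.U _
  rw [← hX C, ← hX C']
  refine ev_mono D.nonneg D.le_one fun ω _ => ?_
  have hneg : ∀ C, X C ω ≤ 0 := by
    intro C
    by_cases hw : w ∈ cl R (away C ω)
    · simp [X, ind_false (not_not.2 hw)]
    · simp only [X, ind_true hw, one_mul, sub_nonpos]
      refine hh ?_
      rw [← cl_away (sep_single_right.2 hw) (T := {w})]
      exact cl_mono subset_rfl (away_mono subset_rfl (away_subset C ω))
  have hD : away C' ω ⊆ away C ω := away_mono hC subset_rfl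
  by_cases hw : w ∈ cl R (away C ω)
  · simpa [X, ind_false (not_not.2 hw)] using hneg C'
  · have hw' : w ∉ cl R (away C' ω) := fun h' => hw (cl_mono subset_rfl hD h')
    simp only [X, ind_true hw, ind_true hw', one_mul]
    have h1 := hh (cl_mono (subset_refl ({w} : Set W)) hD)
    have h2 := hh (cl_mono (subset_refl ({w} : Set W))
      (away_mono (cl_mono (subset_refl R) hD) (subset_refl ω)))
    linarith

/-- The pairing against a function of the `i`-th cluster. -/
noncomputable def Sys.pair (μ : ℕ → ℝ) (i : ℕ) (h : Set W → ℝ) : ℝ :=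
  ev D.p D.U fun ω => D.N i ω * (D.g μ i (D.C i ω) * h (D.C i ω))

/-- One resampling step decreases the pairing. -/
lemma Sys.pair_step {μ : ℕ → ℝ} {i : ℕ} (hi : i < D.m)
    (ih : ∀ j < i, ∀ h : Set W → ℝ, Monotone h → 0 ≤ D.pair μ j h)
    {h : Set W → ℝ} (hh : Monotone h) : D.pair μ i (D.T i h) ≤ D.pair μ i h := by
  set w := D.v i with hw
  set R := D.R (i + 1) with hR
  -- the two parts
  have hA : 0 ≤ ev D.p D.U fun ω => D.N i ω *
      (∑ j ∈ range (i + 1), D.N j ω * D.g μ j (D.C j ω)) *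
      (h (D.C i ω) - D.H i h (cl R ω)) := by
    let Φ : Set W → Finset (Sym2 W) → ℝ := fun S η => ind (w ∉ S) *
      ((ind (∃ l < i + 1, D.v l ∉ S ∧ D.a ∈ cl {D.v l} η) -
          ∑ l ∈ range (i + 1), μ l * ind (D.v l ∉ S)) * (h (cl {w} η) - D.H i h S))
    have heq : ∀ ω, D.N i ω * (∑ j ∈ range (i + 1), D.N j ω * D.g μ j (D.C j ω)) *
        (h (D.C i ω) - D.H i h (cl R ω)) = Φ (cl R ω) (away (cl R ω) ω) := by
      intro ω
      rw [D.sum_g μ ω (by omega)]
      by_cases hwS : w ∈ cl R ω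
      · simp [Φ, Sys.N, ← hw, ← hR, ind_false (not_not.2 hwS)]
      have hev : ((∃ j < i + 1, D.a ∈ D.C j ω) ∧ D.a ∉ cl R ω) ↔
          ∃ l < i + 1, D.v l ∉ cl R ω ∧ D.a ∈ cl {D.v l} (away (cl R ω) ω) := by
        constructor
        · rintro ⟨⟨j, hj, hja⟩, hna⟩
          have hv : D.v j ∉ cl R ω := fun h' =>
            hna (cl_trans (Set.singleton_subset_iff.2 h') subset_rfl hja)
          exact ⟨j, hj, hv, by rw [cl_away (sep_single_right.2 hv)]; exact hja⟩
        · rintro ⟨l, hl, hv, hla⟩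
          rw [cl_away (sep_single_right.2 hv)] at hla
          exact ⟨⟨l, hl, hla⟩, fun h' => hv
            (cl_trans (Set.singleton_subset_iff.2 h') subset_rfl (mem_cl_singleton_symm.1 hla))⟩
      simp only [Sys.C] at hev
      simp only [Φ, Sys.N, ← hw, ← hR, ind_true hwS, one_mul, Sys.C, ind_congr hev,
        cl_away (sep_single_right.2 hwS) (T := {w})]
    rw [ev_congr fun ω _ => heq ω, ev_explore_cl]
    refine ev_nonneg D.nonneg D.le_one fun ω _ => ?_
    simp only [Φ, ev_mul_left]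
    refine mul_nonneg (ind_nonneg _) ?_
    set S := cl R ω
    set c := ∑ l ∈ range (i + 1), μ l * ind (D.v l ∉ S)
    let f : Finset (Sym2 W) → ℝ := fun η =>
      ind (∃ l < i + 1, D.v l ∉ S ∧ D.a ∈ cl {D.v l} (away S η))
    let k : Finset (Sym2 W) → ℝ := fun η => h (cl {w} (away S η))
    have hf : Monotone f := fun η η' hη => ind_mono fun ⟨l, hl, hv, ha⟩ =>
      ⟨l, hl, hv, cl_mono subset_rfl (away_mono subset_rfl hη) ha⟩
    have hk : Monotone k := fun η η' hη => hh (cl_mono subset_rfl (away_mono subset_rfl hη))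
    have hk' : ev D.p D.U k = D.H i h S := rfl
    have H1 : ev D.p D.U (fun η => (f η - c) * (k η - D.H i h S)) =
        ev D.p D.U (fun η => f η * k η) - ev D.p D.U f * ev D.p D.U k := by
      have e : ∀ η, (f η - c) * (k η - D.H i h S) =
          f η * k η - D.H i h S * f η - (c * k η - c * D.H i h S) := fun η => by ring
      rw [ev_congr fun η _ => e η, ev_sub, ev_sub, ev_sub, ev_mul_left, ev_mul_left, ev_const, hk']
      ring
    show 0 ≤ ev D.p D.U fun η => (f η - c) * (k η - D.H i h S)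
    rw [H1]
    exact sub_nonneg.2 (ev_mul_ge D.nonneg D.le_one _ hf hk)
  have hB : ∀ j < i, ev D.p D.U (fun ω => D.N i ω * (D.N j ω * D.g μ j (D.C j ω)) *
      (h (D.C i ω) - D.H i h (cl R ω))) ≤ 0 := by
    intro j hj
    let ψ : Set W → ℝ := fun C => ev D.p D.U fun ω =>
      ind (w ∉ cl R (away C ω)) * (h (cl {w} (away C ω)) - D.H i h (cl R (away C ω)))
    let Φ : Set W → Finset (Sym2 W) → ℝ := fun C η =>
      (ind (∀ x ∈ D.R (j + 1), x ∉ C) * D.g μ j C) *
        (ind (w ∉ cl R η) * (h (cl {w} η) - D.H i h (cl R η)))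
    have heq : ∀ ω, D.N i ω * (D.N j ω * D.g μ j (D.C j ω)) * (h (D.C i ω) - D.H i h (cl R ω)) =
        Φ (D.C j ω) (away (D.C j ω) ω) := by
      intro ω
      have hN : D.N j ω = ind (∀ x ∈ D.R (j + 1), x ∉ D.C j ω) := ind_congr sep_singleton.symm
      by_cases hs : ∀ x ∈ D.R (j + 1), x ∉ D.C j ω
      · have hsR : Sep {D.v j} R ω := fun x hx => hs x (D.R_mono (by omega) hx)
        have hsw : Sep {D.v j} {w} ω := fun x hx =>
          hs x ((Set.mem_singleton_iff.1 hx) ▸ D.mem_R (by omega) hi)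
        rw [hN, show D.N i ω = ind (w ∉ cl R ω) from rfl]
        simp only [Φ, Sys.C, cl_away hsR, cl_away hsw, ← hw]
        ring
      · simp [Φ, hN, ind_false hs]
    rw [ev_congr fun ω _ => heq ω]
    simp only [Sys.C]
    rw [ev_explore_cl]
    simp only [Φ, ev_mul_left]
    have := ih j hj (fun C => -ψ C) (fun C C' hC => neg_le_neg (D.psi_antitone i hh hC))
    rw [Sys.pair] at this
    have e : ev D.p D.U (fun ω => D.N j ω * (D.g μ j (D.C j ω) * -ψ (D.C j ω))) =
        - ev D.p D.U (fun ω => (ind (∀ x ∈ D.R (j + 1), x ∉ cl {D.v j} ω) *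
          D.g μ j (cl {D.v j} ω)) * ψ (cl {D.v j} ω)) := by
      rw [← ev_neg]
      refine ev_congr fun ω _ => ?_
      rw [show D.N j ω = ind (∀ x ∈ D.R (j + 1), x ∉ cl {D.v j} ω) from
        ind_congr sep_singleton.symm, Sys.C]
      ring
    rw [e] at this
    simp only [ψ] at this ⊢
    linarith
  -- combine
  have hkey : 0 ≤ ev D.p D.U fun ω =>
      D.N i ω * (D.g μ i (D.C i ω) * (h (D.C i ω) - D.H i h (cl R ω))) := by
    have e : ∀ ω, D.N i ω * (D.g μ i (D.C i ω) * (h (D.C i ω) - D.H i h (cl R ω))) =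
        D.N i ω * (∑ j ∈ range (i + 1), D.N j ω * D.g μ j (D.C j ω)) *
          (h (D.C i ω) - D.H i h (cl R ω)) -
        ∑ j ∈ range i, D.N i ω * (D.N j ω * D.g μ j (D.C j ω)) *
          (h (D.C i ω) - D.H i h (cl R ω)) := by
      intro ω
      rw [sum_range_succ, mul_add, add_mul, mul_sum, sum_mul]
      have : D.N i ω * D.N i ω = D.N i ω := by
        rw [Sys.N, ← ind_and, ind_congr (and_self_iff)]
      rw [← mul_assoc (D.N i ω) (D.N i ω), this]
      ring
    rw [ev_congr fun ω _ => e ω, ev_sub, ev_sum]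
    have := sum_nonpos fun j hj => hB j (mem_range.1 hj)
    linarith
  have hT : D.pair μ i (D.T i h) =
      ev D.p D.U fun ω => D.N i ω * (D.g μ i (D.C i ω) * D.H i h (cl R ω)) := by
    let Φ : Set W → Finset (Sym2 W) → ℝ := fun C η =>
      (ind (∀ x ∈ R, x ∉ C) * D.g μ i C) * D.H i h (cl R η)
    have heq : ∀ ω, D.N i ω * (D.g μ i (D.C i ω) * D.H i h (cl R ω)) =
        Φ (cl {w} ω) (away (cl {w} ω) ω) := by
      intro ω
      rw [show D.N i ω = ind (∀ x ∈ R, x ∉ cl {w} ω) from ind_congr sep_singleton.symm]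
      by_cases hs : ∀ x ∈ R, x ∉ cl {w} ω
      · simp only [Φ, Sys.C, ← hw, cl_away (show Sep {w} R ω from hs)]
        ring
      · simp [Φ, ind_false hs]
    rw [ev_congr fun ω _ => heq ω, ev_explore_cl, Sys.pair]
    refine ev_congr fun ω _ => ?_
    simp only [Φ, ev_mul_left]
    rw [show D.N i ω = ind (∀ x ∈ R, x ∉ cl {w} ω) from ind_congr sep_singleton.symm]
    simp only [Sys.C, Sys.T, ← hw, ← hR]
    ring
  have hsplit : (ev D.p D.U fun ω =>
      D.N i ω * (D.g μ i (D.C i ω) * (h (D.C i ω) - D.H i h (cl R ω)))) =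
      D.pair μ i h - ev D.p D.U fun ω => D.N i ω * (D.g μ i (D.C i ω) * D.H i h (cl R ω)) := by
    rw [Sys.pair, ← ev_sub]
    exact ev_congr fun ω _ => by ring
  linarith

/-- The correlation lemma: each pairing with an increasing function is nonnegative. -/
theorem Sys.pair_nonneg {μ : ℕ → ℝ} (hμ : D.Solves μ) :
    ∀ i < D.m, ∀ h : Set W → ℝ, Monotone h → 0 ≤ D.pair μ i h := by
  intro i
  induction i using Nat.strong_induction_on with
  | _ i ih =>
    intro hi h hh
    set r := 1 - wt D.p D.U ∅ with hr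
    set G := ev D.p D.U fun ω => |D.N i ω * D.g μ i (D.C i ω)| with hG
    have key : ∀ (n : ℕ) (h : Set W → ℝ) (M : ℝ), Monotone h → (∀ C C', h C - h C' ≤ M) →
        -(G * M * r ^ n) ≤ D.pair μ i h := by
      intro n
      induction n with
      | zero =>
        intro h M _ hM
        have e : D.pair μ i h =
            ev D.p D.U fun ω => D.N i ω * D.g μ i (D.C i ω) * (h (D.C i ω) - h ∅) := by
          rw [ev_congr fun ω _ => (show D.N i ω * D.g μ i (D.C i ω) * (h (D.C i ω) - h ∅) =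
            D.N i ω * (D.g μ i (D.C i ω) * h (D.C i ω)) -
              h ∅ * (D.N i ω * D.g μ i (D.C i ω)) by ring), ev_sub, ev_mul_left, hμ i hi,
            mul_zero, sub_zero, Sys.pair]
        rw [e, pow_zero, mul_one, hG, mul_comm, ← ev_mul_left, ← ev_neg]
        refine ev_mono D.nonneg D.le_one fun ω _ => ?_
        have h1 : |h (D.C i ω) - h ∅| ≤ M := abs_le.2 ⟨by linarith [hM ∅ (D.C i ω)], hM _ _⟩
        have h2 := mul_le_mul_of_nonneg_left h1 (abs_nonneg (D.N i ω * D.g μ i (D.C i ω)))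
        rw [← abs_mul] at h2
        linarith [neg_abs_le (D.N i ω * D.g μ i (D.C i ω) * (h (D.C i ω) - h ∅))]
      | succ n ihn =>
        intro h M hh hM
        have h1 := ihn _ (r * M) (D.T_monotone i hh) (D.T_osc i hM)
        have h2 := D.pair_step hi (fun j hj => ih j hj (hj.trans hi)) hh (μ := μ)
        rw [pow_succ]
        linarith
    have hr0 : 0 ≤ r := sub_nonneg.2 ((single_le_sum (f := fun S => wt D.p D.U S)
      (fun S _ => wt_nonneg D.nonneg D.le_one _ _) (empty_mem_powerset D.U)).trans_eq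
      (by simpa [ev] using ev_const (p := D.p) (U := D.U) 1))
    have hr1 : r < 1 := by have := wt_empty_pos (U := D.U) D.nonneg D.lt_one; linarith
    have hlim := ((tendsto_pow_atTop_nhds_zero_of_lt_one hr0 hr1).const_mul
      (G * (h Set.univ - h ∅))).neg
    rw [mul_zero, neg_zero] at hlim
    exact le_of_tendsto hlim (Filter.Eventually.of_forall fun n => key n h _ hh fun C C' =>
      sub_le_sub (hh (Set.subset_univ C)) (hh (Set.empty_subset C')))

/-- The multipliers are nonnegative. -/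
theorem Sys.mult_nonneg {μ : ℕ → ℝ} (hμ : D.Solves μ) {i : ℕ} (hi : i < D.m) : 0 ≤ μ i := by
  let q : Set W → ℝ := fun C => ind (∃ l < i, D.v l ∈ C)
  have h1 := D.pair_nonneg hμ i hi q fun C C' hC => ind_mono fun ⟨l, hl, h⟩ => ⟨l, hl, hC h⟩
  let P0 := ev D.p D.U fun ω => D.N i ω * ind (∀ l < i, D.v l ∉ D.C i ω)
  let A0 := ev D.p D.U fun ω => D.N i ω * (ind (∀ l < i, D.v l ∉ D.C i ω) * ind (D.a ∈ D.C i ω))
  have e : D.pair μ i q = -(A0 - μ i * P0) := by
    have e' : ∀ ω, D.N i ω * (D.g μ i (D.C i ω) * q (D.C i ω)) =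
        D.N i ω * D.g μ i (D.C i ω) -
        (D.N i ω * (ind (∀ l < i, D.v l ∉ D.C i ω) * ind (D.a ∈ D.C i ω)) -
          μ i * (D.N i ω * ind (∀ l < i, D.v l ∉ D.C i ω))) := by
      intro ω
      by_cases hn : ∀ l < i, D.v l ∉ D.C i ω
      · rw [show q (D.C i ω) = 0 from ind_false fun ⟨l, hl, h⟩ => hn l hl h, ind_true hn, Sys.g,
          sum_range_succ, sum_eq_zero fun l hl => by rw [ind_false (hn l (mem_range.1 hl)), mul_zero],
          ind_true (D.self_mem i ω)]
        ring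
      · rw [show q (D.C i ω) = 1 from ind_true (by push Not at hn; exact hn), ind_false hn]
        ring
    rw [Sys.pair, ev_congr fun ω _ => e' ω, ev_sub, ev_sub, ev_mul_left, hμ i hi, zero_sub]
  have hP : 0 < P0 := by
    refine lt_of_lt_of_le (wt_empty_pos (U := D.U) D.nonneg D.lt_one) ?_
    refine le_trans ?_ (single_le_sum
      (f := fun S => wt D.p D.U S * (D.N i S * ind (∀ l < i, D.v l ∉ D.C i S)))
      (fun S _ => mul_nonneg (wt_nonneg D.nonneg D.le_one _ _)
        (mul_nonneg (ind_nonneg _) (ind_nonneg _))) (empty_mem_powerset D.U))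
    have h2 : ∀ l < i, D.v l ∉ D.C i ∅ := fun l hl h => by
      rw [Sys.C, cl_empty_edges, Set.mem_singleton_iff] at h
      have := D.inj l (hl.trans hi) i hi h
      omega
    have h3 : D.v i ∉ cl (D.R (i + 1)) ∅ := by
      rw [cl_empty_edges]
      rintro (h | ⟨j, hij, hj, h⟩)
      · exact D.ne_b i hi h
      · have := D.inj j hj i hi h
        omega
    rw [Sys.N, ind_true h3, ind_true h2, mul_one, mul_one]
  have hA : 0 ≤ A0 := ev_nonneg D.nonneg D.le_one fun ω _ =>
    mul_nonneg (ind_nonneg _) (mul_nonneg (ind_nonneg _) (ind_nonneg _))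
  rw [e] at h1
  by_contra hneg
  nlinarith [mul_pos (neg_pos.2 (not_le.1 hneg)) hP]

/-- The certificate. -/
theorem Sys.certificate {F : Set W → ℝ} (hF : Monotone F)
    (hmin : ∀ i < D.m, ev D.p D.U (fun ω => F (cl {D.b} ω)) ≤ ev D.p D.U fun ω => F (D.C i ω)) :
    ev D.p D.U (fun ω => ind (D.a ∈ cl (D.R 0) ω) * F (cl {D.b} ω)) ≤
      ev D.p D.U fun ω => ind (D.a ∈ cl (D.R 0) ω) * F (cl {D.a} ω) := by
  obtain ⟨μ, hμ⟩ := D.exists_solves
  have hpt : ∀ ω, ∑ j ∈ range D.m, D.N j ω * (D.g μ j (D.C j ω) * (F (D.C j ω) - F (cl {D.b} ω))) =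
      ind (D.a ∈ cl (D.R 0) ω) * (F (cl {D.a} ω) - F (cl {D.b} ω)) -
        ∑ l ∈ range D.m, μ l * (F (D.C l ω) - F (cl {D.b} ω)) := by
    intro ω
    have hR : ∀ x, x ∈ cl (D.R D.m) ω ↔ x ∈ cl {D.b} ω := by
      intro x
      have : D.R D.m = {D.b} := by
        ext y
        refine ⟨?_, fun h => .inl h⟩
        rintro (h | ⟨j, h1, h2, -⟩)
        · exact h
        · omega
      rw [this]
    have hcnt : ∀ x, ∑ j ∈ range D.m, D.N j ω * (ind (x ∈ D.C j ω) *
        (F (D.C j ω) - F (cl {D.b} ω))) =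
        ind (∃ j < D.m, x ∈ D.C j ω) * (F (cl {x} ω) - F (cl {D.b} ω)) := by
      intro x
      have e : ∀ j, D.N j ω * (ind (x ∈ D.C j ω) * (F (D.C j ω) - F (cl {D.b} ω))) =
          D.N j ω * ind (x ∈ D.C j ω) * (F (cl {x} ω) - F (cl {D.b} ω)) := by
        intro j
        by_cases hx : x ∈ D.C j ω
        · rw [Sys.C, cl_singleton_eq hx]; ring
        · rw [ind_false hx]; ring
      rw [sum_congr rfl fun j _ => e j, ← sum_mul, D.sum_count x ω D.m le_rfl]
      by_cases hx : x ∈ cl {D.b} ω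
      · rw [cl_singleton_eq hx, sub_self, mul_zero, mul_zero]
      · exact congrArg (· * _) (ind_congr ⟨fun h => h.1, fun h => ⟨h, fun h' => hx ((hR x).1 h')⟩⟩)
    have hfirst : ind (D.a ∈ cl (D.R 0) ω) * (F (cl {D.a} ω) - F (cl {D.b} ω)) =
        ind (∃ j < D.m, D.a ∈ D.C j ω) * (F (cl {D.a} ω) - F (cl {D.b} ω)) := by
      by_cases hx : D.a ∈ cl {D.b} ω
      · rw [cl_singleton_eq hx, sub_self, mul_zero, mul_zero]
      · refine congrArg (· * _) (ind_congr ⟨?_, ?_⟩)
        · rintro ⟨u, hu | ⟨j, -, hj, rfl⟩, hr⟩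
          · exact absurd ⟨u, hu, hr⟩ hx
          · exact ⟨j, hj, D.v j, rfl, hr⟩
        · rintro ⟨j, hj, z, rfl, hr⟩
          exact ⟨D.v j, D.mem_R (Nat.zero_le j) hj, hr⟩
    have hsum : ∀ j ∈ range D.m, D.N j ω * (D.g μ j (D.C j ω) * (F (D.C j ω) - F (cl {D.b} ω))) =
        D.N j ω * (ind (D.a ∈ D.C j ω) * (F (D.C j ω) - F (cl {D.b} ω))) -
          ∑ l ∈ range D.m, μ l * (D.N j ω * (ind (D.v l ∈ D.C j ω) *
            (F (D.C j ω) - F (cl {D.b} ω)))) := by
      intro j hj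
      rw [← sum_subset (range_subset_range.2 (mem_range.1 hj)) fun l hl hl' => by
        rw [← mul_assoc (D.N j ω), D.N_mul_eq_zero (by simp at hl'; omega) (mem_range.1 hl)]
        ring]
      rw [Sys.g, sub_mul, mul_sub, sum_mul, mul_sum]
      congr 1
      exact sum_congr rfl fun l _ => by ring
    rw [sum_congr rfl hsum, sum_sub_distrib, hcnt, sum_comm, hfirst]
    congr 1
    refine sum_congr rfl fun l hl => ?_
    rw [← mul_sum, hcnt, ind_true ⟨l, mem_range.1 hl, D.self_mem l ω⟩, one_mul]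
    rfl
  have hterm : ∀ j < D.m,
      0 ≤ ev D.p D.U fun ω => D.N j ω * (D.g μ j (D.C j ω) * (F (D.C j ω) - F (cl {D.b} ω))) := by
    intro j hj
    let G : Set W → ℝ := fun C => ev D.p D.U fun ω => F (cl {D.b} (away C ω))
    have hG : Monotone fun C => -G C := fun C C' hC => neg_le_neg
      (ev_mono D.nonneg D.le_one fun ω _ => hF (cl_mono subset_rfl (away_mono hC subset_rfl)))
    have h1 := D.pair_nonneg hμ j hj F hF
    have h2 := D.pair_nonneg hμ j hj _ hG
    let Φ : Set W → Finset (Sym2 W) → ℝ := fun C η =>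
      (ind (∀ x ∈ D.R (j + 1), x ∉ C) * D.g μ j C) * F (cl {D.b} η)
    have hN : ∀ ω, D.N j ω = ind (∀ x ∈ D.R (j + 1), x ∉ cl {D.v j} ω) := fun ω =>
      ind_congr sep_singleton.symm
    have heq : ev D.p D.U (fun ω => D.N j ω * (D.g μ j (D.C j ω) * F (cl {D.b} ω))) =
        -D.pair μ j (fun C => -G C) := by
      rw [ev_congr (g := fun ω => Φ (cl {D.v j} ω) (away (cl {D.v j} ω) ω)) fun ω _ => ?_,
        ev_explore_cl, Sys.pair, ← ev_neg]
      · refine ev_congr fun ω _ => ?_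
        simp only [Φ, ev_mul_left, G, hN, Sys.C]
        ring
      · by_cases hs : ∀ x ∈ D.R (j + 1), x ∉ cl {D.v j} ω
        · have hb : Sep {D.v j} {D.b} ω := fun x hx =>
            hs x ((Set.mem_singleton_iff.1 hx) ▸ Set.mem_insert _ _)
          simp only [Φ, hN, Sys.C, cl_away hb]
          ring
        · simp [Φ, hN, ind_false hs]
    have hsp : ev D.p D.U (fun ω => D.N j ω * (D.g μ j (D.C j ω) * (F (D.C j ω) - F (cl {D.b} ω)))) =
        D.pair μ j F - ev D.p D.U (fun ω => D.N j ω * (D.g μ j (D.C j ω) * F (cl {D.b} ω))) := by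
      rw [Sys.pair, ← ev_sub]
      exact ev_congr fun ω _ => by ring
    rw [hsp, heq]
    linarith
  have h := sum_nonneg fun j hj => hterm j (mem_range.1 hj)
  rw [← ev_sum, ev_congr fun ω _ => hpt ω, ev_sub, ev_sum] at h
  have h2 : 0 ≤ ∑ l ∈ range D.m, ev D.p D.U fun ω => μ l * (F (D.C l ω) - F (cl {D.b} ω)) :=
    sum_nonneg fun l hl => by
      rw [ev_mul_left, ev_sub]
      exact mul_nonneg (D.mult_nonneg hμ (mem_range.1 hl))
        (sub_nonneg.2 (hmin l (mem_range.1 hl)))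
  rw [ev_congr (g := fun ω => ind (D.a ∈ cl (D.R 0) ω) * F (cl {D.a} ω) -
    ind (D.a ∈ cl (D.R 0) ω) * F (cl {D.b} ω)) fun ω _ => mul_sub _ _ _, ev_sub] at h
  linarith

end Vale.Agent.P151.KN
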