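import Vale.Agent.P151.KN.Inequality

/-!
The connection inequality for weights up to one and for a single parameter.
-/

open Finset Filter Topology

namespace Vale.Agent.P151.KN

open Vale.Agent.P151.Fin
open P165 (cl)

variable {W : Type*} [DecidableEq W]

lemma continuous_pr {U : Finset (Sym2 W)} (p : Sym2 W → ℝ) (Q : Finset (Sym2 W) → Prop) :
    Continuous fun s : ℝ => pr (fun e => s * p e) U Q := by
  simp only [pr, ev, wt]
  fun_prop

/-- The connection inequality for all weights in `[0,1]`, in minimum form. -/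
theorem connection_min {p : Sym2 W → ℝ} {U : Finset (Sym2 W)} (h0 : ∀ e, 0 ≤ p e)
    (h1 : ∀ e, p e ≤ 1) (a d : W) {B : Finset W} (hB : B.Nonempty) :
    pr p U (fun ω => a ∈ cl (B : Set W) ω) * B.inf' hB (fun u => pr p U fun ω => d ∈ cl {u} ω) ≤
      pr p U (fun ω => a ∈ cl (B : Set W) ω ∧ d ∈ cl {a} ω) := by
  let p' : ℝ → Sym2 W → ℝ := fun s e => s * p e
  have hp : p' 1 = p := funext fun e => one_mul _
  let L : ℝ → ℝ := fun s => pr (p' s) U (fun ω => a ∈ cl (B : Set W) ω) *
    B.inf' hB fun u => pr (p' s) U fun ω => d ∈ cl {u} ω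
  let R : ℝ → ℝ := fun s => pr (p' s) U fun ω => a ∈ cl (B : Set W) ω ∧ d ∈ cl {a} ω
  have hL : Continuous L := (continuous_pr p _).mul
    (Continuous.finset_inf'_apply hB fun u _ => continuous_pr p _)
  have hR : Continuous R := continuous_pr p _
  have hle : ∀ᶠ s in 𝓝[<] (1 : ℝ), L s ≤ R s := by
    filter_upwards [Ioo_mem_nhdsLT (show (0 : ℝ) < 1 by norm_num)] with s hs
    exact connection_of_le (fun e => mul_nonneg hs.1.le (h0 e))
      (fun e => lt_of_le_of_lt (mul_le_of_le_one_right hs.1.le (h1 e)) hs.2) a d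
      fun u hu => inf'_le _ hu
  have h : L 1 ≤ R 1 := le_of_tendsto_of_tendsto
    (hL.tendsto 1 |>.mono_left nhdsWithin_le_nhds) (hR.tendsto 1 |>.mono_left nhdsWithin_le_nhds) hle
  simpa only [L, R, hp] using h

/-- The connection inequality for all weights in `[0,1]`, with a common lower bound. -/
theorem connection_of_le_one {p : Sym2 W → ℝ} {U : Finset (Sym2 W)} (h0 : ∀ e, 0 ≤ p e)
    (h1 : ∀ e, p e ≤ 1) (a d : W) {B : Finset W} {t : ℝ}
    (ht : ∀ u ∈ B, t ≤ pr p U fun ω => d ∈ cl {u} ω) :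
    pr p U (fun ω => a ∈ cl (B : Set W) ω) * t ≤
      pr p U (fun ω => a ∈ cl (B : Set W) ω ∧ d ∈ cl {a} ω) := by
  rcases B.eq_empty_or_nonempty with rfl | hB
  · have h : pr p U (fun ω => a ∈ cl ((∅ : Finset W) : Set W) ω) = 0 :=
      (ev_congr fun ω _ => ind_false (by rintro ⟨u, hu, -⟩; simp at hu)).trans (ev_const 0)
    rw [h, zero_mul]
    exact pr_nonneg h0 h1 _
  · exact le_trans (mul_le_mul_of_nonneg_left (le_inf' hB _ ht) (pr_nonneg h0 h1 _))
      (connection_min h0 h1 a d hB)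

/-- The connection inequality with a single parameter. -/
theorem connection_uniform {q : ℝ} (h0 : 0 ≤ q) (h1 : q ≤ 1) (U : Finset (Sym2 W)) (a d : W)
    {B : Finset W} {t : ℝ} (ht : ∀ u ∈ B, t ≤ P165.pr q U fun ω => d ∈ cl {u} ω) :
    P165.pr q U (fun ω => a ∈ cl (B : Set W) ω) * t ≤
      P165.pr q U (fun ω => a ∈ cl (B : Set W) ω ∧ d ∈ cl {a} ω) := by
  simp only [← pr_eq_uniform] at ht ⊢
  exact connection_of_le_one (fun _ => h0) (fun _ => h1) a d ht

lemma continuous_ev {U : Finset (Sym2 W)} (p : Sym2 W → ℝ) (f : Finset (Sym2 W) → ℝ) :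
    Continuous fun s : ℝ => ev (fun e => s * p e) U f := by
  simp only [ev, wt]
  fun_prop

/-- The inequality for an increasing function of the cluster and weights in `[0,1]`. -/
theorem connection_fun_of_le_one {p : Sym2 W → ℝ} {U : Finset (Sym2 W)} (h0 : ∀ e, 0 ≤ p e)
    (h1 : ∀ e, p e ≤ 1) (a : W) {B : Finset W} {F : Set W → ℝ} (hF : Monotone F) {t : ℝ}
    (ht : ∀ u ∈ B, t ≤ ev p U fun ω => F (cl {u} ω)) :
    pr p U (fun ω => a ∈ cl (B : Set W) ω) * t ≤
      ev p U fun ω => ind (a ∈ cl (B : Set W) ω) * F (cl {a} ω) := by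
  rcases B.eq_empty_or_nonempty with rfl | hB
  · have h : ∀ ω, ind (a ∈ cl ((∅ : Finset W) : Set W) ω) = 0 := fun ω =>
      ind_false (by rintro ⟨u, hu, -⟩; simp at hu)
    have e1 : pr p U (fun ω => a ∈ cl ((∅ : Finset W) : Set W) ω) = 0 :=
      (ev_congr fun ω _ => h ω).trans (ev_const 0)
    have e2 : ev p U (fun ω => ind (a ∈ cl ((∅ : Finset W) : Set W) ω) * F (cl {a} ω)) = 0 :=
      (ev_congr fun ω _ => by rw [h ω, zero_mul]).trans (ev_const 0)
    rw [e1, e2, zero_mul]
  · let p' : ℝ → Sym2 W → ℝ := fun s e => s * p e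
    have hp : p' 1 = p := funext fun e => one_mul _
    let L : ℝ → ℝ := fun s => pr (p' s) U (fun ω => a ∈ cl (B : Set W) ω) *
      B.inf' hB fun u => ev (p' s) U fun ω => F (cl {u} ω)
    let R : ℝ → ℝ := fun s => ev (p' s) U fun ω => ind (a ∈ cl (B : Set W) ω) * F (cl {a} ω)
    have hL : Continuous L := (continuous_pr p _).mul
      (Continuous.finset_inf'_apply hB fun u _ => continuous_ev p _)
    have hR : Continuous R := continuous_ev p _
    have hle : ∀ᶠ s in 𝓝[<] (1 : ℝ), L s ≤ R s := by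
      filter_upwards [Ioo_mem_nhdsLT (show (0 : ℝ) < 1 by norm_num)] with s hs
      exact connection_fun_of_le (fun e => mul_nonneg hs.1.le (h0 e))
        (fun e => lt_of_le_of_lt (mul_le_of_le_one_right hs.1.le (h1 e)) hs.2) a hF
        fun u hu => inf'_le _ hu
    have h : L 1 ≤ R 1 := le_of_tendsto_of_tendsto
      (hL.tendsto 1 |>.mono_left nhdsWithin_le_nhds)
      (hR.tendsto 1 |>.mono_left nhdsWithin_le_nhds) hle
    simp only [L, R, hp] at h
    exact le_trans (mul_le_mul_of_nonneg_left (le_inf' hB _ ht) (pr_nonneg h0 h1 _)) h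

end Vale.Agent.P151.KN
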